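import Vale.Agent.P092.H375.X2.Op

/-!
P092 (helper375), [SX-CLS]: a commuting leg over two fields which preserves matroids is classical.
-/

set_option linter.all false

namespace Vale.Agent.P092.H375.X2

open Vale.Agent.P092.H375.Cls
open Vale.Agent.P092.H820 Vale.Agent.P092.H466
open Vale.Agent.P092.H171 (ext ext_apply ext_surj Qg Qg_apply Qg_nd Pos pos_uniq ae_of_pos co phi_congr_ae
  conj_eq hom_uniq ms_restr exists_joint comm_all ae_restr)
open Vale.Agent.P092.H789 (cmap isOpenEmbedding_cmap range_cmap cmap_mul cmap_injective src GPos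
  isOpen_gpos gpos_cmap cmap_apply mk_smul sv sv_ne sv_last sv_castSucc)
open Vale.Agent.P092.RC (PG YY GG)
open Vale.Agent.P092.H35 (sp mkP)
open Vale.Agent.P092.H35.Sig (homog tv)
open TopologicalSpace Set MeasureTheory Matrix Module Topology Filter
open scoped LinearAlgebra.Projectivization Matrix InnerProductSpace ZeroAtInfty

section out

variable {kS k : Type} [NontriviallyNormedField kS] [ProperSpace kS] [NontriviallyNormedField k]
  [ProperSpace k] {m : ℕ} {H Γ K : Type} [Group H]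
  [Group Γ] [NormedAddCommGroup K] [InnerProductSpace ℂ K] [CompleteSpace K]

/-- The classical form of a leg. -/
structure Out2 (α : H →* PG kS (m + 1)) (π : H →* (K →L[ℂ] K)) (lam : Γ →* (K →L[ℂ] K))
    (W : Set (K →L[ℂ] K)) (q : Γ → GG k m) (E : YY kS m → (C(YY k m, ℂ) →⋆ₐ[ℂ] (K →L[ℂ] K)))
    (σ : kS →+* k) (Q : C₀(PG k (m + 1), ℂ) →⋆ₙₐ[ℂ] (K →L[ℂ] K)) : Prop where
  nd : ∀ ξ, (∀ ψ, Q ψ ξ = 0) → ξ = 0
  cm : ∀ ψ, ∀ w ∈ W, Q ψ * w = w * Q ψ
  cov : ∀ γ (ψ ψ' : C₀(PG k (m + 1), ℂ)), (∀ x, ψ' x = ψ ((sp k (m + 1) (q γ))⁻¹ * x)) →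
    lam γ * Q ψ * lam γ⁻¹ = Q ψ'
  pcov : ∀ e (x : PG k (m + 1)), (∀ b : YY kS m, x • sgm σ (m + 1) b = sgm σ (m + 1) (α e • b)) →
    ∀ ψ ψ' : C₀(PG k (m + 1), ℂ), (∀ y, ψ' y = ψ (y * x)) → π e * Q ψ * π e⁻¹ = Q ψ'
  mulE : ∀ b (f : C(YY k m, ℂ)) (ψ ψ' : C₀(PG k (m + 1), ℂ)),
    (∀ x, ψ' x = f (x • sgm σ (m + 1) b) * ψ x) → E b f * Q ψ = Q ψ'
  gen : ∀ T : K →L[ℂ] K, (∀ b f, T * E b f = E b f * T) → ∀ ψ, T * Q ψ = Q ψ * T

variable {α : H →* PG kS (m + 1)} {π : H →* (K →L[ℂ] K)} {lam : Γ →* (K →L[ℂ] K)}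
  {W : Set (K →L[ℂ] K)} {q : Γ → GG k m} {E : YY kS m → (C(YY k m, ℂ) →⋆ₐ[ℂ] (K →L[ℂ] K))}

/-- **[N-CLS]** -/
theorem Leg2.out [Nontrivial K] (hm : 2 ≤ m) (hL : Leg2 α π lam W q E) (ι : GG kS m →* H)
    (hι : ∀ g (x : YY kS m), α (ι g) • x = g • x) :
    ∃ (σ : kS →+* k) (Q : C₀(PG k (m + 1), ℂ) →⋆ₙₐ[ℂ] (K →L[ℂ] K)), Out2 α π lam W q E σ Q := by
  classical
  obtain ⟨Φ₀, hΦ₀'⟩ := hL.joint (src kS m)
  have hΦ₀ : Jn2 E (src kS m) Φ₀ := hΦ₀'
  -- the constants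
  have hex : ∀ i j (hij : i ≠ j) (s : kS), ∃ t : k, Cf2 E (ac hij s) (ac hij t) := by
    intro i j hij s
    obtain ⟨l, hli, hlj⟩ := exists_third hm i j
    obtain ⟨t, ht⟩ := hL.cfg_const hij hli hlj s
    refine ⟨t, fun Φ hΦ ξ => ?_⟩
    filter_upwards [ht Φ hΦ ξ] with z hz
    obtain ⟨g, hg⟩ := hz
    exact ⟨QuotientGroup.mk g, fun y => hg y⟩
  let τ : Fin (m + 1) → Fin (m + 1) → kS → k := fun i j s =>
    if hij : i ≠ j then (hex i j hij s).choose else 0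
  have hτ : ∀ i j (hij : i ≠ j) (s : kS), Cf2 E (ac hij s) (ac hij (τ i j s)) := by
    intro i j hij s
    have e : τ i j s = (hex i j hij s).choose := dif_pos hij
    rw [e]
    exact (hex i j hij s).choose_spec
  have hfr : ∀ ξ, ∀ᵐ z ∂(ms Φ₀ ξ), z ∈ range (cmap k m) := by
    have h01 : (0 : Fin (m + 1)) ≠ ⟨1, by omega⟩ := by
      intro h
      simp [Fin.ext_iff] at h
    obtain ⟨Φ, hΦ⟩ := hL.joint (ac h01 (1 : kS))
    exact (hτ _ _ h01 1).frame hΦ₀ hΦ (src_ri h01 1) (src_ri h01 _)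
  have hpf : ∀ i, Pos (Qc Φ₀) (E (src kS m i)) fun x => x • src k m i := by
    intro i
    have h01 : (0 : Fin (m + 1)) ≠ ⟨1, by omega⟩ := by
      intro h
      simp [Fin.ext_iff] at h
    obtain ⟨Φ, hΦ⟩ := hL.joint (ac h01 (1 : kS))
    have h1 := (hτ _ _ h01 1).mulE hΦ₀ hΦ (src_ri h01 1) (src_ri h01 _) (ri m i)
    rw [← src_ri h01, ← src_ri h01] at h1
    exact h1
  -- right covariance
  have hroot : ∀ i j (hij : i ≠ j) (s : kS),
      Rt π (Qc Φ₀) (ι (tv hij s)) (sp k (m + 1) (tv hij (τ i j s))) := by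
    intro i j hij s
    obtain ⟨Φ, hΦ⟩ := hL.joint (ac hij s)
    refine (hτ i j hij s).right hL.pcov hΦ₀ hΦ (src_ri hij s) (src_ri hij _) (s := si j) ?_ ?_
    · intro x
      rw [hι]
      exact tv_src hij s x
    · intro x
      rw [sp_smul]
      exact tv_src hij _ x
  have hone : ∀ i j, i ≠ j → τ i j 1 = 1 := by
    intro i j hij
    obtain ⟨Φ, hΦ⟩ := hL.joint (ac hij (1 : kS))
    have h1 := (hτ i j hij 1).mulE hΦ₀ hΦ (src_ri hij 1) (src_ri hij _) (.inr 1)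
    have h2 := (hτ i j hij 1).mulE hΦ₀ hΦ (src_ri hij 1) (src_ri hij _) (.inr 2)
    have e : (ac hij (1 : kS) (.inr 2) : YY kS m) = ac hij 1 (.inr 1) :=
      pj_smul_eq _ _ (c := 1) (by
        rw [one_smul]
        change (1 : kS) • (ev i : Fin (m + 1) → kS) + ev j = ev i + ev j
        rw [one_smul])
    rw [e] at h2
    obtain ⟨g, hg⟩ := pos_uniq isOpenEmbedding_cmap hfr (cont_pt _) (cont_pt _) h1 h2
    exact ac_one (s := 1) hij (smul_left_cancel g hg)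
  obtain ⟨σ, -, hσ⟩ := sig (by omega) (Rt := fun h x => Rt π (Qc Φ₀) (ι h) x)
    (fun g h g' h' h1 h2 => by
      change Rt π (Qc Φ₀) (ι (g * h)) (g' * h')
      rw [map_mul]
      exact h1.mul h2)
    (fun h h' h'' h1 h2 => rt_uniq2 hL.pcov hfr hpf h1 h2) τ hroot hone
  -- positions of all points
  have hpos : ∀ b : YY kS m, Pos (Qc Φ₀) (E b) fun x => x • sgm σ (m + 1) b := by
    have hT : {b : YY kS m | Pos (Qc Φ₀) (E b) fun x => x • sgm σ (m + 1) b} = univ := by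
      refine homog (by omega) ⟨src kS m 0, ?_⟩ ?_
      · have h1 := hpf 0
        rw [← sgm_src σ 0] at h1
        rw [mem_setOf_eq]
        rw [sgm_src σ 0] at h1 ⊢
        exact hpf 0
      · intro g b hb
        have h1 := rt_pos2 hL.pcov (hσ g) hb
        rw [hι] at h1
        rw [mem_setOf_eq, sgm_smul]
        simp only [sp_smul] at h1
        exact h1
    intro b
    have : b ∈ {b : YY kS m | Pos (Qc Φ₀) (E b) fun x => x • sgm σ (m + 1) b} := by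
      rw [hT]; trivial
    exact this
  refine ⟨σ, Qc Φ₀, ?_, ?_, ?_, ?_, ?_, ?_⟩
  · intro ξ h
    exact Qg_nd isOpenEmbedding_cmap hfr h
  · intro ψ w hw
    have h1 := comm_all Φ₀ (T := w) (fun i f => by
      rw [hΦ₀ i f]; exact (hL.cm _ _ w hw).symm) (ext isOpenEmbedding_cmap ψ)
    exact h1.symm
  · intro γ ψ ψ' hψ
    have h1 := hΦ₀.lam_conj hL γ (ext isOpenEmbedding_cmap ψ)
    change lam γ * Φ₀ (ext isOpenEmbedding_cmap ψ) * lam γ⁻¹ = _
    rw [h1]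
    refine phi_congr_ae Φ₀ fun ξ => ?_
    filter_upwards [hfr ξ] with z hz
    obtain ⟨x, rfl⟩ := hz
    have h2 : (fun i => (q γ)⁻¹ • cmap k m x i) = cmap k m ((sp k (m + 1) (q γ))⁻¹ * x) := by
      funext i
      rw [cmap_mul, ← map_inv, sp_smul]
    change ext isOpenEmbedding_cmap ψ (fun i => (q γ)⁻¹ • cmap k m x i) = _
    rw [h2, ext_apply, ext_apply, hψ]
  · intro e x hx
    refine rt_of_pos2 hL.pcov hL.com hΦ₀ hfr fun i => ?_
    have h1 := hpos (α e • src kS m i)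
    rw [← hx, sgm_src] at h1
    simp only [← mul_smul] at h1
    exact h1
  · intro b f ψ ψ' h
    exact hpos b f ψ ψ' h
  · intro T hT ψ
    exact comm_all Φ₀ (T := T) (fun i f => by
      rw [hΦ₀ i f]; exact hT _ _) (ext isOpenEmbedding_cmap ψ)

end out

end Vale.Agent.P092.H375.X2
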