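import Vale.Agent.P092.H35.Sig

/-!
P092 (helper375), [SX-CLS]: `H35/Sig` with two fields `kS` (source) and `k` (target).
-/

set_option linter.all false

open scoped LinearAlgebra.Projectivization
open Matrix Topology Filter

namespace Vale.Agent.P092.H375.X2

open Vale.Agent.P092.RC (PG YY GG)
open Vale.Agent.P092.H35
open Vale.Agent.P092.H35.Sig (tv tv_add tv_inv tv_zero sp_tv_inj tv_comm homog)
open Matrix.SpecialLinearGroup (transvection_coe transvection_add
  transvection_inv transvection_coeff_zero)

section sig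

variable {kS k : Type} [NontriviallyNormedField kS] [NontriviallyNormedField k] {n : ℕ}

/-- **(S1)** -/
theorem sig (hn : 3 ≤ n) {Rt : SpecialLinearGroup (Fin n) kS → PG k n → Prop}
    (mul : ∀ g h g' h', Rt g g' → Rt h h' → Rt (g * h) (g' * h'))
    (uniq : ∀ h h' h'', Rt h h' → Rt h h'' → h' = h'')
    (τ : Fin n → Fin n → kS → k)
    (root : ∀ i j (hij : i ≠ j) (s : kS), Rt (tv hij s)
      (sp k n (tv hij (τ i j s))))
    (one : ∀ i j, i ≠ j → τ i j 1 = 1) :
    ∃ σ : kS →+* k, (∀ i j, i ≠ j → ∀ s, τ i j s = σ s) ∧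
      ∀ h, Rt h (sp k n (SpecialLinearGroup.map σ h)) := by
  have hadd : ∀ i j, i ≠ j → ∀ s t, τ i j (s + t) = τ i j s + τ i j t := by
    intro i j hij s t
    have h1 := mul _ _ _ _ (root i j hij s) (root i j hij t)
    rw [← tv_add, ← map_mul, ← tv_add] at h1
    exact sp_tv_inj hij (uniq _ _ _ (root i j hij (s + t)) h1)
  have hmul : ∀ i j l, i ≠ j → j ≠ l → i ≠ l → ∀ s t,
      τ i l (s * t) = τ i j s * τ j l t := by
    intro i j l hij hjl hil s t
    have h1 := mul _ _ _ _ (root i j hij s) (root j l hjl t)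
    have h2 := mul _ _ _ _ (root i l hil (s * t))
      (mul _ _ _ _ (root j l hjl t) (root i j hij s))
    rw [← tv_comm hij hjl hil] at h2
    have h3 := uniq _ _ _ h1 h2
    have h4 : sp k n (tv hij (τ i j s)) * sp k n (tv hjl (τ j l t)) =
        sp k n (tv hil (τ i j s * τ j l t)) *
          (sp k n (tv hjl (τ j l t)) * sp k n (tv hij (τ i j s))) := by
      rw [← map_mul, ← map_mul, ← map_mul, tv_comm hij hjl hil]
    rw [h4] at h3
    exact (sp_tv_inj hil (mul_right_cancel h3)).symm
  have hrow : ∀ i j l, i ≠ j → i ≠ l → ∀ s, τ i j s = τ i l s := by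
    intro i j l hij hil s
    by_cases hjl : j = l
    · rw [hjl]
    · have := hmul i j l hij hjl hil s 1
      rw [mul_one, one j l hjl, mul_one] at this
      exact this.symm
  have hcol : ∀ i j l, i ≠ l → j ≠ l → ∀ s, τ i l s = τ j l s := by
    intro i j l hil hjl s
    by_cases hij : i = j
    · rw [hij]
    · have := hmul i j l hij hjl hil 1 s
      rw [one_mul, one i j hij, one_mul] at this
      exact this
  have hall : ∀ i j a b, i ≠ j → a ≠ b → ∀ s, τ i j s = τ a b s := by
    intro i j a b hij hab s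
    obtain ⟨c, hc⟩ : ∃ c : Fin n, c ∉ ({i, a} : Finset (Fin n)) := by
      by_contra hcon
      push Not at hcon
      have h1 : (Finset.univ : Finset (Fin n)) ⊆ {i, a} := fun x _ => hcon x
      have h2 := Finset.card_le_card h1
      rw [Finset.card_univ, Fintype.card_fin] at h2
      exact absurd (h2.trans (Finset.card_le_two)) (by omega)
    simp only [Finset.mem_insert, Finset.mem_singleton, not_or] at hc
    rw [hrow i j c hij (Ne.symm hc.1), hcol i a c (Ne.symm hc.1) (Ne.symm hc.2),
      hrow a c b (Ne.symm hc.2) hab]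
  obtain ⟨a, b, c, hab, hbc, hac⟩ : ∃ a b c : Fin n, a ≠ b ∧ b ≠ c ∧ a ≠ c := by
    refine ⟨⟨0, by omega⟩, ⟨1, by omega⟩, ⟨2, by omega⟩, ?_, ?_, ?_⟩ <;>
      · intro h
        simp at h
  have hz : τ a b 0 = 0 := by
    have := hadd a b hab 0 0
    rw [add_zero] at this
    exact left_eq_add.1 this
  let σ : kS →+* k :=
    { toFun := τ a b
      map_one' := one a b hab
      map_mul' := fun s t => by
        rw [hall a b a c hab hac, hmul a b c hab hbc hac, hall b c a b hbc hab]
      map_zero' := hz
      map_add' := hadd a b hab }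
  have hσ : ∀ i j, i ≠ j → ∀ s, τ i j s = σ s := fun i j hij s => hall i j a b hij hab s
  refine ⟨σ, hσ, ?_⟩
  have hmapt : ∀ (i j : Fin n) (hij : i ≠ j) (s : kS),
      SpecialLinearGroup.map σ (tv hij s) = tv hij (σ s) := by
    intro i j hij s
    apply Subtype.ext
    change (tv hij s).1.map σ = (tv hij (σ s)).1
    ext x y
    simp only [transvection_coe, Matrix.map_apply, Matrix.add_apply, Matrix.one_apply,
      Matrix.single_apply, map_add]
    split_ifs <;> simp
  haveI : Nontrivial (Fin n) := ⟨⟨a, b, hab⟩⟩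
  let S : Set (SpecialLinearGroup (Fin n) kS) := {g | ∃ i j, ∃ hij : i ≠ j, ∃ s : kS,
    g = tv hij s}
  have hS : Subgroup.closure S = ⊤ := by
    refine H899.eq_top_of_e _ fun i j hij s => Subgroup.subset_closure ⟨i, j, hij, s, rfl⟩
  intro h
  have hmem : h ∈ Submonoid.closure (S ∪ S⁻¹) := by
    rw [← Subgroup.closure_toSubmonoid, hS]
    trivial
  have hSS : S ∪ S⁻¹ ⊆ S := by
    rintro g (hg | hg)
    · exact hg
    · obtain ⟨i, j, hij, s, hs⟩ := hg
      refine ⟨i, j, hij, -s, ?_⟩
      rw [← tv_inv, ← hs, inv_inv]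
  have hone : Rt 1 (sp k n (SpecialLinearGroup.map σ 1)) := by
    have h1 := root a b hab 0
    rw [hz, tv_zero, tv_zero, map_one] at h1
    rw [map_one, map_one]
    exact h1
  have hmem' := Submonoid.closure_mono hSS hmem
  refine Submonoid.closure_induction
    (motive := fun g _ => Rt g (sp k n (SpecialLinearGroup.map σ g))) ?_ hone ?_ hmem'
  · rintro g ⟨i, j, hij, s, rfl⟩
    rw [hmapt, ← hσ i j hij]
    exact root i j hij s
  · intro x y _ _ hx hy
    rw [map_mul, map_mul]
    exact mul _ _ _ _ hx hy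

end sig

/-! ### the semilinear map -/

section sgm

variable {kS k : Type} [Field kS] [Field k] {n : ℕ}

/-- `v ↦ σ ∘ v` -/
def sl (σ : kS →+* k) (n : ℕ) : (Fin n → kS) →ₛₗ[σ] (Fin n → k) where
  toFun v i := σ (v i)
  map_add' v w := by
    ext i
    simp
  map_smul' c v := by
    ext i
    simp

theorem sl_inj (σ : kS →+* k) (n : ℕ) : Function.Injective (sl σ n) := by
  intro v w h
  funext i
  exact σ.injective (congrFun h i)

/-- `[v] ↦ [σ ∘ v]` -/
noncomputable def sgm (σ : kS →+* k) (n : ℕ) : ℙ kS (Fin n → kS) → ℙ k (Fin n → k) :=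
  Projectivization.map (sl σ n) (sl_inj σ n)

theorem sgm_mk (σ : kS →+* k) (v : Fin n → kS) (hv : v ≠ 0) :
    sgm σ n (Projectivization.mk kS v hv) = Projectivization.mk k (fun i => σ (v i))
      (fun h => hv (sl_inj σ n (h.trans (map_zero (sl σ n)).symm))) := rfl

theorem sgm_inj (σ : kS →+* k) : Function.Injective (sgm σ n) := by
  intro x y hxy
  induction x using Projectivization.ind with
  | h v hv =>
    induction y using Projectivization.ind with
    | h w hw =>
      rw [sgm_mk, sgm_mk, Projectivization.mk_eq_mk_iff'] at hxy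
      obtain ⟨c, hc⟩ := hxy
      obtain ⟨i, hi⟩ : ∃ i, w i ≠ 0 := by
        by_contra h
        push Not at h
        exact hw (funext h)
      have hσ : σ (w i) ≠ 0 := (map_ne_zero σ).2 hi
      have h1 : c = σ (v i / w i) := by
        rw [map_div₀, eq_div_iff hσ]
        exact congrFun hc i
      rw [Projectivization.mk_eq_mk_iff']
      refine ⟨v i / w i, ?_⟩
      funext j
      refine σ.injective ?_
      have h2 := congrFun hc j
      rw [h1] at h2
      simpa using h2

theorem sgm_smul (σ : kS →+* k) (h : SpecialLinearGroup (Fin n) kS) (a : ℙ kS (Fin n → kS)) :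
    sgm σ n (h • a) = SpecialLinearGroup.map σ h • sgm σ n a := by
  induction a using Projectivization.ind with
  | h v hv =>
    rw [sgm_mk, Projectivization.smul_mk, Projectivization.smul_mk, sgm_mk]
    congr 1
    funext i
    change σ ((h.1 *ᵥ v) i) = ((SpecialLinearGroup.map σ h).1 *ᵥ fun i => σ (v i)) i
    rw [RingHom.map_mulVec]
    rfl

/-- the frame points are fixed by `σ_*` -/
theorem sgm_src {kS k : Type} [NontriviallyNormedField kS] [NontriviallyNormedField k] {m : ℕ}
    (σ : kS →+* k) (i : Fin (m + 2)) :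
    sgm σ (m + 1) (H789.src kS m i) = H789.src k m i := by
  have e : sgm σ (m + 1) (H789.src kS m i) = Projectivization.mk k (fun j => σ (H789.sv kS m i j))
      (fun h => H789.sv_ne kS m i (sl_inj σ (m + 1) (h.trans (map_zero (sl σ (m + 1))).symm))) := rfl
  have e2 : H789.src k m i = Projectivization.mk k (H789.sv k m i) (H789.sv_ne k m i) := rfl
  rw [e, e2]
  congr 1
  funext j
  refine Fin.lastCases ?_ (fun l => ?_) i
  · rw [H789.sv_last, H789.sv_last, map_one]
  · rw [H789.sv_castSucc, H789.sv_castSucc]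
    by_cases h : j = l
    · subst h
      rw [Pi.single_eq_same, Pi.single_eq_same, map_one]
    · rw [Pi.single_eq_of_ne h, Pi.single_eq_of_ne h, map_zero]

/-- `σ_*` is continuous if `σ` is -/
theorem sgm_cont {kS k : Type} [NontriviallyNormedField kS] [NontriviallyNormedField k] {n : ℕ}
    {σ : kS →+* k}
    (hσ : Continuous σ) : Continuous (sgm σ n) := by
  have hq : IsOpenQuotientMap (H820.pj kS (Fin n)) := H820.pj_oq
  rw [← hq.continuous_comp_iff]
  have e : sgm σ n ∘ H820.pj kS (Fin n) = fun v : {v : Fin n → kS // v ≠ 0} =>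
      H820.pj k (Fin n) ⟨fun i => σ (v.1 i),
        fun h => v.2 (sl_inj σ n (h.trans (map_zero (sl σ n)).symm))⟩ := rfl
  rw [e]
  refine H820.pj_continuous.comp (Continuous.subtype_mk ?_ _)
  exact continuous_pi fun i => hσ.comp ((continuous_apply i).comp continuous_subtype_val)

/-- for one field these are the letters of `H35/Sig` -/
theorem sgm_eq {k : Type} [Field k] (σ : k →+* k) (n : ℕ) : sgm σ n = H35.Sig.sgm σ n := rfl

end sgm

end Vale.Agent.P092.H375.X2
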