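import Vale.Agent.P092.H375.X2.Leg
import Vale.Agent.P092.H416.Inc

/-!
P092 (helper375), [SX-CLS]: points and hyperplanes with exact incidence over two fields preserve the
matroids.
-/

set_option linter.all false

namespace Vale.Agent.P092.H375.X2

open Vale.Agent.P092.H820 Vale.Agent.P092.H466
open Vale.Agent.P092.H171 (co hom_uniq ms_restr exists_joint co_induction cont_hom)
open Vale.Agent.P092.H375.Cls
open Vale.Agent.P092.H416 (dual_indep exists_dual ne_of_dual measurableSet_rk ae_of_supp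
  ae_not_of_ker)
open TopologicalSpace Set MeasureTheory Matrix Module
open Projectivization (orthogonal)
open scoped LinearAlgebra.Projectivization Matrix InnerProductSpace

/-! ### Linear algebra -/

section alg

/-- the dot product -/
noncomputable def dB (F : Type) [Field F] (n : ℕ) : LinearMap.BilinForm F (Fin n → F) :=
  Matrix.toBilin' (1 : Matrix (Fin n) (Fin n) F)

theorem dB_apply {F : Type} [Field F] {n : ℕ} (v w : Fin n → F) : dB F n v w = v ⬝ᵥ w := by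
  rw [dB, Matrix.toBilin'_apply', Matrix.one_mulVec]

theorem dB_nd (F : Type) [Field F] (n : ℕ) : (dB F n).Nondegenerate :=
  Matrix.Nondegenerate.toBilin' (Matrix.nondegenerate_of_det_ne_zero (by simp))

theorem dB_comm {F : Type} [Field F] {n : ℕ} (v w : Fin n → F) : dB F n v w = dB F n w v := by
  rw [dB_apply, dB_apply, dotProduct_comm]

theorem orth_rep {F : Type} [NontriviallyNormedField F] {n : ℕ} {ι μ : Type*}
    {u : ι → Fin n → F} {z : ι → ℙ F (Fin n → F)} {u' : μ → Fin n → F} {c : μ → ℙ F (Fin n → F)}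
    (h : Rep u z) (h' : Rep u' c) (i : ι) (j : μ) :
    orthogonal (z i) (c j) ↔ dB F n (u i) (u' j) = 0 := by
  obtain ⟨h1, e1⟩ := h i
  obtain ⟨h2, e2⟩ := h' j
  rw [e1, e2, dB_apply]
  exact Projectivization.orthogonal_mk h1 h2

variable {kS : Type} [NontriviallyNormedField kS] {n : ℕ}

theorem exists_big2 {ι : Type} [Fintype ι] (a : ι → ℙ kS (Fin n → kS)) (A : Finset ι) :
    ∃ (κ μ : Type) (_ : Fintype κ) (_ : Fintype μ) (p : κ → ℙ kS (Fin n → kS))
      (c : μ → ℙ kS (Fin n → kS)), ∀ {k : Type} [NontriviallyNormedField k]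
      (y : ι ⊕ κ → ℙ k (Fin n → k)) (y' : μ → ℙ k (Fin n → k)),
      (∀ s t, orthogonal (y s) (y' t) ↔ orthogonal (Sum.elim a p s) (c t)) →
      rk (fun i => y (.inl i)) A = rk a A := by
  classical
  obtain ⟨ua, hua⟩ := exists_rep a
  obtain ⟨b, hbA, -, hb2, hb3⟩ := exists_linearIndepOn_extension (K := kS) (v := ua)
    (linearIndepOn_empty kS ua) (empty_subset (A : Set ι))
  have hd1 : LinearIndependent kS (fun x : b => ua x) := hb3
  obtain ⟨d1, h1⟩ := exists_dual (dB_nd kS n) hd1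
  let U := Submodule.span kS (ua '' (A : Set ι))
  let O := (dB kS n).orthogonal U
  let r := finrank kS O
  let bO := finBasis kS O
  have hd2 : LinearIndependent kS (fun x : Fin r => (bO x : Fin n → kS)) := by
    have := bO.linearIndependent.map' O.subtype (Submodule.ker_subtype O)
    exact this
  obtain ⟨d2, h2⟩ := exists_dual (dB_nd kS n) hd2
  let wc : b ⊕ Fin r → Fin n → kS := Sum.elim d1 (fun x => (bO x : Fin n → kS))
  have hwc : ∀ x, wc x ≠ 0 := by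
    rintro (x | x)
    · exact ne_of_dual h1 x
    · exact hd2.ne_zero x
  haveI : Fintype b := Fintype.ofFinite b
  refine ⟨Fin r, b ⊕ Fin r, inferInstance, inferInstance,
    fun x => pj kS (Fin n) ⟨d2 x, ne_of_dual h2 x⟩, fun x => pj kS (Fin n) ⟨wc x, hwc x⟩, ?_⟩
  intro k _ y y' hy
  have hrepc : Rep wc (fun x => pj kS (Fin n) ⟨wc x, hwc x⟩) := fun x => ⟨hwc x, rfl⟩
  have hrepp : Rep (Sum.elim ua d2) (Sum.elim a (fun x => pj kS (Fin n) ⟨d2 x, ne_of_dual h2 x⟩)) := by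
    rintro (x | x)
    · exact hua x
    · exact ⟨ne_of_dual h2 x, rfl⟩
  obtain ⟨uy, huy⟩ := exists_rep y
  obtain ⟨uy', huy'⟩ := exists_rep y'
  have key : ∀ s t, dB k n (uy s) (uy' t) = 0 ↔ dB kS n (Sum.elim ua d2 s) (wc t) = 0 :=
    fun s t => by rw [← orth_rep huy huy', hy s t, orth_rep hrepp hrepc]
  have huyl : Rep (fun i => uy (.inl i)) (fun i => y (.inl i)) := fun i => huy (.inl i)
  -- ranks of `a`
  have ra : rk a A = Fintype.card b := by
    rw [hua.rk]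
    have e : Submodule.span kS (ua '' (A : Set ι)) =
        Submodule.span kS (Set.range (fun x : b => ua x)) := by
      have e2 : Set.range (fun x : b => ua x) = ua '' b := by
        ext v
        simp
      rw [e2]
      exact le_antisymm (Submodule.span_le.2 hb2) (Submodule.span_mono (image_mono hbA))
    rw [e, finrank_span_eq_card hd1]
  have rU : finrank kS U = rk a A := by rw [hua.rk]
  have rO : r = n - rk a A := by
    have := LinearMap.BilinForm.finrank_orthogonal (dB_nd kS n) U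
    rw [finrank_fin_fun, rU] at this
    exact this
  have rn : rk a A ≤ n := by
    rw [← rU]
    exact (Submodule.finrank_le U).trans (by rw [finrank_fin_fun])
  -- independence behind
  have i1 : LinearIndependent k (fun x : b => uy (.inl x)) :=
    dual_indep (B := dB k n) (d' := fun x : b => uy' (.inl x)) fun x x' => by
      rw [key, ← h1]
      rfl
  have i2 : LinearIndependent k (fun x : Fin r => uy' (.inr x)) :=
    dual_indep (B := dB k n) (d' := fun x => uy (.inr x)) fun x x' => by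
      rw [dB_comm, key, ← h2, dB_comm]
      rfl
  refine le_antisymm ?_ ?_
  · -- upper bound
    let D := Submodule.span k (Set.range fun x : Fin r => uy' (.inr x))
    have hD : finrank k D = r := by
      rw [finrank_span_eq_card i2, Fintype.card_fin]
    have hle : Submodule.span k ((fun i => uy (.inl i)) '' (A : Set ι)) ≤
        (dB k n).flip.orthogonal D := by
      rw [Submodule.span_le]
      rintro _ ⟨x, hx, rfl⟩
      change uy (.inl x) ∈ (dB k n).flip.orthogonal D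
      rw [LinearMap.BilinForm.mem_orthogonal_iff]
      intro v hv
      change dB k n (uy (.inl x)) v = 0
      have hDle : D ≤ LinearMap.ker (dB k n (uy (.inl x))) := by
        rw [Submodule.span_le]
        rintro _ ⟨t, rfl⟩
        change dB k n (uy (.inl x)) (uy' (.inr t)) = 0
        rw [key]
        change dB kS n (ua x) (bO t : Fin n → kS) = 0
        have h3 := (LinearMap.BilinForm.mem_orthogonal_iff.1 (bO t).2) (ua x)
          (Submodule.subset_span ⟨x, hx, rfl⟩)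
        exact h3
      exact hDle hv
    rw [huyl.rk]
    refine (Submodule.finrank_mono hle).trans ?_
    rw [LinearMap.BilinForm.finrank_orthogonal (dB_nd k n).flip, finrank_fin_fun, hD, rO]
    omega
  · rw [ra, huyl.rk, ← finrank_span_eq_card i1]
    refine Submodule.finrank_mono (Submodule.span_mono ?_)
    rintro _ ⟨x, rfl⟩
    exact ⟨x.1, hbA x.2, rfl⟩

end alg

/-! ### Joint calculi of a family of calculi -/

section jf

variable {X : Type} [TopologicalSpace X] [CompactSpace X] [MetrizableSpace X]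
  {K : Type} [NormedAddCommGroup K] [InnerProductSpace ℂ K] [CompleteSpace K]

/-- `Φ` is the joint calculus of the family `φ` -/
def Jf {ι : Type} (φ : ι → (C(X, ℂ) →⋆ₐ[ℂ] (K →L[ℂ] K)))
    (Φ : C(ι → X, ℂ) →⋆ₐ[ℂ] (K →L[ℂ] K)) : Prop := ∀ i f, Φ (co i f) = φ i f

/-- restriction of coordinates -/
def rs {ι ι' : Type} (r : ι' → ι) : C(ι → X, ι' → X) := ⟨fun z i => z (r i), by fun_prop⟩

theorem Jf.comp {ι ι' : Type} {φ : ι → (C(X, ℂ) →⋆ₐ[ℂ] (K →L[ℂ] K))}
    {φ' : ι' → (C(X, ℂ) →⋆ₐ[ℂ] (K →L[ℂ] K))} {Φ : C(ι → X, ℂ) →⋆ₐ[ℂ] (K →L[ℂ] K)}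
    {Φ' : C(ι' → X, ℂ) →⋆ₐ[ℂ] (K →L[ℂ] K)} (h : Jf φ Φ) (h' : Jf φ' Φ') (r : ι' → ι)
    (hr : ∀ i f, φ' i f = φ (r i) f) : Φ.comp ((rs r).compStarAlgHom' ℂ ℂ) = Φ' := by
  refine hom_uniq fun i f => ?_
  have h1 : (Φ.comp ((rs r).compStarAlgHom' ℂ ℂ)) (co i f) = Φ (co (r i) f) := rfl
  rw [h1, h (r i) f, h' i f, hr i]

variable [SecondCountableTopology X] [MeasurableSpace X] [BorelSpace X]

/-- from small to large families -/
theorem Jf.pull {ι ι' : Type} [Fintype ι] [Fintype ι'] {φ : ι → (C(X, ℂ) →⋆ₐ[ℂ] (K →L[ℂ] K))}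
    {φ' : ι' → (C(X, ℂ) →⋆ₐ[ℂ] (K →L[ℂ] K))} {Φ : C(ι → X, ℂ) →⋆ₐ[ℂ] (K →L[ℂ] K)}
    {Φ' : C(ι' → X, ℂ) →⋆ₐ[ℂ] (K →L[ℂ] K)} (h : Jf φ Φ) (h' : Jf φ' Φ') (r : ι' → ι)
    (hr : ∀ i f, φ' i f = φ (r i) f) {p : (ι' → X) → Prop} (ξ : K)
    (hp : ∀ᵐ y ∂(ms Φ' ξ), p y) : ∀ᵐ z ∂(ms Φ ξ), p (fun i => z (r i)) := by
  rw [← h.comp h' r hr] at hp
  exact H171.ae_restr Φ (rs r) ξ hp

/-- from large to small families -/
theorem Jf.push {ι ι' : Type} [Fintype ι] [Fintype ι'] {φ : ι → (C(X, ℂ) →⋆ₐ[ℂ] (K →L[ℂ] K))}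
    {φ' : ι' → (C(X, ℂ) →⋆ₐ[ℂ] (K →L[ℂ] K))} {Φ : C(ι → X, ℂ) →⋆ₐ[ℂ] (K →L[ℂ] K)}
    {Φ' : C(ι' → X, ℂ) →⋆ₐ[ℂ] (K →L[ℂ] K)} (h : Jf φ Φ) (h' : Jf φ' Φ') (r : ι' → ι)
    (hr : ∀ i f, φ' i f = φ (r i) f) {p : (ι' → X) → Prop} (hm : MeasurableSet {y | p y}) (ξ : K)
    (hp : ∀ᵐ z ∂(ms Φ ξ), p (fun i => z (r i))) : ∀ᵐ y ∂(ms Φ' ξ), p y := by
  rw [← h.comp h' r hr, ms_restr, ae_map_iff (rs r).continuous.measurable.aemeasurable hm]
  exact hp

end jf

/-! ### From incidence to the matroid -/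

section mt

variable {kS k : Type} [NontriviallyNormedField kS] [NontriviallyNormedField k] [ProperSpace k]
  {n : ℕ} {K : Type} [NormedAddCommGroup K] [InnerProductSpace ℂ K] [CompleteSpace K]
  {E F : ℙ kS (Fin n → kS) → (C(ℙ k (Fin n → k), ℂ) →⋆ₐ[ℂ] (K →L[ℂ] K))}

theorem mt_of_inc2 (cEE : ∀ a b f g, Commute (E a f) (E b g))
    (cEF : ∀ a b f g, Commute (E a f) (F b g)) (cFF : ∀ a b f g, Commute (F a f) (F b g))
    (hinc : ∀ (b c : ℙ kS (Fin n → kS)) (Φ : C(Fin 2 → ℙ k (Fin n → k), ℂ) →⋆ₐ[ℂ] (K →L[ℂ] K)),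
      (∀ f, Φ (co 0 f) = E b f) → (∀ f, Φ (co 1 f) = F c f) →
      ∀ ξ, ∀ᵐ z ∂(ms Φ ξ), (orthogonal (z 0) (z 1) ↔ orthogonal b c))
    {ι : Type} [Fintype ι] (a : ι → ℙ kS (Fin n → kS))
    (Φ : C(ι → ℙ k (Fin n → k), ℂ) →⋆ₐ[ℂ] (K →L[ℂ] K)) (hΦ : ∀ i f, Φ (co i f) = E (a i) f)
    (ξ : K) : ∀ᵐ z ∂(ms Φ ξ), Mt2 a z := by
  refine ae_all_iff.2 fun A => ?_
  obtain ⟨κ, μ, hκ, hμ, p, c, hy⟩ := exists_big2 a A
  let φ : (ι ⊕ κ) ⊕ μ → (C(ℙ k (Fin n → k), ℂ) →⋆ₐ[ℂ] (K →L[ℂ] K)) :=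
    Sum.elim (fun s => E (Sum.elim a p s)) (fun t => F (c t))
  obtain ⟨Ψ, hΨ'⟩ := exists_joint φ (by
    rintro (s | s) (t | t) f g
    · exact cEE _ _ _ _
    · exact cEF _ _ _ _
    · exact (cEF _ _ _ _).symm
    · exact cFF _ _ _ _)
  have hΨ : Jf φ Ψ := hΨ'
  have hΦ' : Jf (fun i => E (a i)) Φ := hΦ
  refine hΨ.push hΦ' (fun i => .inl (.inl i)) (fun i f => rfl) (measurableSet_rk A _) ξ ?_
  have h1 : ∀ᵐ z ∂(ms Ψ ξ), ∀ s t, (orthogonal (z (.inl s)) (z (.inr t)) ↔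
      orthogonal (Sum.elim a p s) (c t)) := by
    refine ae_all_iff.2 fun s => ae_all_iff.2 fun t => ?_
    obtain ⟨Θ, hΘ⟩ := exists_joint
      (fun i : Fin 2 => (![E (Sum.elim a p s), F (c t)] i : C(ℙ k (Fin n → k), ℂ) →⋆ₐ[ℂ] (K →L[ℂ] K)))
      (by
        intro i j f g
        fin_cases i <;> fin_cases j
        · exact cEE _ _ _ _
        · exact cEF _ _ _ _
        · exact (cEF _ _ _ _).symm
        · exact cFF _ _ _ _)
    have h2 := hinc (Sum.elim a p s) (c t) Θ (fun f => hΘ 0 f) (fun f => hΘ 1 f) ξ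
    have h3 : Jf (fun i : Fin 2 => (![E (Sum.elim a p s), F (c t)] i :
      C(ℙ k (Fin n → k), ℂ) →⋆ₐ[ℂ] (K →L[ℂ] K))) Θ := hΘ
    exact hΨ.pull h3 ![.inl s, .inr t] (fun i f => by fin_cases i <;> rfl)
      (p := fun z => orthogonal (z 0) (z 1) ↔ orthogonal (Sum.elim a p s) (c t)) ξ h2
  filter_upwards [h1] with z hz
  exact hy (fun s => z (.inl s)) (fun t => z (.inr t)) hz

end mt

end Vale.Agent.P092.H375.X2
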