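import Vale.Agent.P092.SX.Blocks
import Vale.Agent.P092.SN.ClsF
import Vale.Agent.P092.H375.X2.Out
import Vale.Agent.P092.H375.X2.Inc

/-!
P092 (helper375), [SX-CLS]: `SX.ClsStmt kS k μ` for every local field `kS` and every target field.
-/

set_option linter.all false

open scoped InnerProductSpace ENNReal LinearAlgebra.Projectivization ZeroAtInfty
open Filter Topology ContinuousLinearMap MeasureTheory TopologicalSpace Matrix

namespace Vale.Agent.P092.H375.X2

open Vale.Agent.P092.SN (CY CG inc NInc act PH Adm fp fh)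
open Vale.Agent.P092.SN.ClsF (gp gh fp_gp fh_gh tsupport_gp tsupport_gh tsupport_fp tsupport_fh)
open Vale.Agent.P092.RC (Cm TRN Moore GG PG YY y0 ct)
open Vale.Agent.P092.H100.Gr (Gr)
open Vale.Agent.P092.H644.Gr3 (p1 hyp p1H hypH p1_le_hyp)
open Vale.Agent.P092.H820 Vale.Agent.P092.H466
open Vale.Agent.P092.H171 (co)
open Vale.Agent.P092.H416 (orB orB_pj isClosed_orB ae_of_supp ae_not_of_ker)
open Projectivization (orthogonal)

theorem isClosed_orth {k : Type} [NontriviallyNormedField k] [ProperSpace k] {n : ℕ} :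
    IsClosed {p : ℙ k (Fin n → k) × ℙ k (Fin n → k) | orthogonal p.1 p.2} := by
  have e : {p : ℙ k (Fin n → k) × ℙ k (Fin n → k) | orthogonal p.1 p.2} =
      {p | orB (dB k n) p.1 p.2} := by
    ext ⟨x, y⟩
    obtain ⟨v, rfl⟩ := pj_surj x
    obtain ⟨w, rfl⟩ := pj_surj y
    simp only [Set.mem_setOf_eq]
    rw [orB_pj, dB_apply]
    exact Projectivization.orthogonal_mk v.2 w.2
  rw [e]
  exact isClosed_orB _

section

variable {kS k : Type} [NontriviallyNormedField kS] [ProperSpace kS] [NontriviallyNormedField k]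
  [ProperSpace k] {N : ℕ} {E Γ K : Type} [Group E] [TopologicalSpace E] [Group Γ]
  [NormedAddCommGroup K] [InnerProductSpace ℂ K] [CompleteSpace K]

theorem leg2_of [MeasurableSpace kS] {μ : Measure kS} {w : kSˣ} {ι : GG kS N →* E}
    {a a' : E →* PG kS (N + 1)} {π : E →* (K →L[ℂ] K)} {lam : Γ →* (K →L[ℂ] K)}
    {W : Set (K →L[ℂ] K)} {Ω : K} {m : Set Γ → (K →L[ℂ] K)} {q : Γ → GG k N} {Z : ℝ → Set Γ}
    {Ec F : YY kS N → (CY k N →⋆ₐ[ℂ] (K →L[ℂ] K))}
    {G : ∀ j, Gr kS (Fin (N + 1)) j → (CG k N j →⋆ₐ[ℂ] (K →L[ℂ] K))} (hk : H933.LocK kS)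
    (h : SX.LegN μ w ι a a' π lam W Ω m q Z Ec F) (hC : SX.CalN ι π lam W q Ec F G)
    (hK : H218.NC.Key₁ G) : Leg2 a π lam W q Ec := by
  have hN := h.adm.hN
  have e1 : ∀ b f, Ec b f = G 1 (p1 b) (gp f) := fun b f => by rw [hC.pnt, fp_gp]
  have e2 : ∀ b f, F b f = G N (hyp b) (gh f) := fun b f => by rw [hC.top, fh_gh]
  have hin : ∀ u v : CY k N,
      (∀ x ∈ tsupport u, ∀ y ∈ tsupport v, ¬ Projectivization.orthogonal x y) →
      H232.Nin (fun x y => H218.NC.In x y) (gp u) (gh v) := by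
    intro u v huv x hx y hy hxy
    rw [tsupport_gp] at hx
    rw [tsupport_gh] at hy
    refine huv _ hx _ hy ?_
    rw [← p1_le_hyp]
    have h1 : p1 (p1H.symm x) = x := p1H.apply_symm_apply x
    have h2 : hyp (hypH.symm y) = y := hypH.apply_symm_apply y
    rw [h1, h2]
    exact hxy
  have cEE : ∀ b c f g, Commute (Ec b f) (Ec c g) := by
    intro b c f g
    rw [e1, e1]
    exact H218.NC.all_comm hN hC.cal hK 1 1 le_rfl (by omega) le_rfl (by omega) _ _ _ _
  have cEF : ∀ b c f g, Commute (Ec b f) (F c g) := by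
    intro b c f g
    rw [e1, e2]
    exact H218.NC.all_comm hN hC.cal hK 1 N le_rfl (by omega) (by omega) le_rfl _ _ _ _
  have cFF : ∀ b c f g, Commute (F b f) (F c g) := by
    intro b c f g
    rw [e2, e2]
    exact H218.NC.all_comm hN hC.cal hK N N (by omega) le_rfl (by omega) le_rfl _ _ _ _
  refine ⟨h.e.cm, fun γ x f => h.e.cov γ x f, h.e.pcov, cEE, ?_, ?_⟩
  · intro i j l hij hli hlj T h1 h2 h3
    refine h.pic.erg _ (H835.moore_fix hk h.adm
      (H835.span_pair_ne_top hN (Pi.single i 1) (Pi.single j 1))) T h1 h2 fun e he => h3 e he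
  · intro κ _ b Φ hΦ ξ
    refine mt_of_inc2 cEE cEF cFF ?_ b Φ hΦ ξ
    intro x y Θ hΘ0 hΘ1 ξ
    by_cases hxy : orthogonal x y
    · filter_upwards [ae_of_supp (isClosed_orth (k := k) (n := N + 1)) (φ := Ec x) (ψ := F y)
        (fun f g hfg => by
          rw [e1, e2]
          exact hC.cal.inc 1 N le_rfl (by omega) le_rfl _ _ (p1_le_hyp.2 hxy) _ _
            (hin f g fun u hu v hv => hfg u hu v hv)) Θ hΘ0 hΘ1 ξ] with z hz
      exact ⟨fun _ => hxy, fun _ => hz⟩
    · filter_upwards [ae_not_of_ker (isClosed_orth (k := k) (n := N + 1)) (φ := Ec x) (ψ := F y)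
        (fun ζ hζ => H218.NC.ninc hN hC.cal hK 1 N le_rfl (by omega) (by omega) le_rfl (p1 x)
          (hyp y) (fun hle => hxy (p1_le_hyp.1 hle)) ζ fun u v huv => by
            rw [hC.pnt, hC.top]
            refine hζ (fp u) (fh v) fun x' hx' y' hy' hxy' => ?_
            rw [tsupport_fp] at hx'
            rw [tsupport_fh] at hy'
            exact huv _ hx' _ hy' (p1_le_hyp.2 hxy')) Θ hΘ0 hΘ1 ξ] with z hz
      exact ⟨fun h' => absurd h' hz, fun h' => absurd h' hxy⟩

end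

/-- **[SX-CLS]** -/
theorem clsStmt {kS k : Type} [NontriviallyNormedField kS] [ProperSpace kS]
    [NontriviallyNormedField k] [ProperSpace k] [MeasurableSpace kS] {μ : Measure kS}
    (hk : H933.LocK kS) : SX.ClsStmt kS k μ := by
  intro N E Γ K _ _ _ _ _ _ w ι a a' π lam W Ω m q Z Ec F G h hC hK
  haveI : Nontrivial K := ⟨Ω, 0, fun h0 => by
    have := h.pic.nΩ
    rw [h0, norm_zero] at this
    exact zero_ne_one this⟩
  obtain ⟨σ, Q, hQ⟩ := (leg2_of hk h hC hK).out h.adm.hN ι h.adm.comp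
  exact ⟨σ, Q, hQ.nd, hQ.cm, hQ.cov, hQ.pcov, hQ.mulE⟩

end Vale.Agent.P092.H375.X2
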