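import Vale.Agent.P092.H375.X2.Mt
import Vale.Agent.P092.H375.ClsG

/-!
P092 (helper375), [SX-CLS]: a commuting leg over two fields; its cross ratios are scalars.
-/

set_option linter.all false

namespace Vale.Agent.P092.H375.X2

open Vale.Agent.P092 (RC.PG)
open Vale.Agent.P092.H820 Vale.Agent.P092.H466 Vale.Agent.P092.H171
open Vale.Agent.P092.H375.Cls
open TopologicalSpace Set MeasureTheory Matrix Module
open scoped LinearAlgebra.Projectivization Matrix InnerProductSpace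

section leg

variable {kS k : Type} [NontriviallyNormedField kS] [ProperSpace kS] [NontriviallyNormedField k]
  [ProperSpace k]
  {n : ℕ} {H Γ K : Type} [Group H] [Group Γ] [NormedAddCommGroup K] [InnerProductSpace ℂ K]
  [CompleteSpace K]

/-- A leg in which all points commute and which preserves the matroids. The source group `H` acts
on the points through `α : H →* PGL_n(kS)`; the target is `q : Γ → SL_n(k)`. -/
structure Leg2 (α : H →* RC.PG kS n) (π : H →* (K →L[ℂ] K)) (lam : Γ →* (K →L[ℂ] K))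
    (W : Set (K →L[ℂ] K)) (q : Γ → SpecialLinearGroup (Fin n) k)
    (E : ℙ kS (Fin n → kS) → (C(ℙ k (Fin n → k), ℂ) →⋆ₐ[ℂ] (K →L[ℂ] K))) : Prop where
  cm : ∀ a f, ∀ w ∈ W, E a f * w = w * E a f
  cov : ∀ γ a f, lam γ * E a f * lam γ⁻¹ = E a (tr (q γ) f)
  pcov : ∀ e a f, π e * E a f * π e⁻¹ = E (α e • a) f
  com : ∀ a b f g, Commute (E a f) (E b g)
  /-- ergodicity: operators commuting with the pointwise stabiliser of a line -/
  erg : ∀ (i j l : Fin n), i ≠ j → l ≠ i → l ≠ j → ∀ T : K →L[ℂ] K, (∀ w ∈ W, T * w = w * T) →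
    (∀ γ, T * lam γ = lam γ * T) →
    (∀ e : H, (∀ x : ℙ kS (Fin n → kS), x.submodule ≤ Submodule.span kS {Pi.single i 1,
      Pi.single j 1} → α e • x = x) → T * π e = π e * T) → ∃ c : ℂ, T = c • (1 : K →L[ℂ] K)
  /-- the matroid of finitely many points is preserved -/
  mt : ∀ {ι : Type} [Fintype ι] (a : ι → ℙ kS (Fin n → kS))
    (Φ : C(ι → ℙ k (Fin n → k), ℂ) →⋆ₐ[ℂ] (K →L[ℂ] K)), (∀ i f, Φ (co i f) = E (a i) f) →
    ∀ ξ, ∀ᵐ z ∂(ms Φ ξ), Mt2 a z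

variable {α : H →* RC.PG kS n} {π : H →* (K →L[ℂ] K)} {lam : Γ →* (K →L[ℂ] K)}
  {W : Set (K →L[ℂ] K)} {q : Γ → SpecialLinearGroup (Fin n) k}
  {E : ℙ kS (Fin n → kS) → (C(ℙ k (Fin n → k), ℂ) →⋆ₐ[ℂ] (K →L[ℂ] K))}

theorem Leg2.joint (hL : Leg2 α π lam W q E) {ι : Type} (a : ι → ℙ kS (Fin n → kS)) :
    ∃ Φ : C(ι → ℙ k (Fin n → k), ℂ) →⋆ₐ[ℂ] (K →L[ℂ] K), ∀ i f, Φ (co i f) = E (a i) f :=
  exists_joint (fun i => E (a i)) fun i j f g => hL.com _ _ f g

/-- `Φ` is the joint calculus of the points `a` -/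
def Jn2 (E : ℙ kS (Fin n → kS) → (C(ℙ k (Fin n → k), ℂ) →⋆ₐ[ℂ] (K →L[ℂ] K))) {ι : Type}
    (a : ι → ℙ kS (Fin n → kS)) (Φ : C(ι → ℙ k (Fin n → k), ℂ) →⋆ₐ[ℂ] (K →L[ℂ] K)) : Prop :=
  ∀ i f, Φ (co i f) = E (a i) f

theorem Jn2.comp {ι ι' : Type} {a : ι → ℙ kS (Fin n → kS)} {a' : ι' → ℙ kS (Fin n → kS)}
    {Φ : C(ι → ℙ k (Fin n → k), ℂ) →⋆ₐ[ℂ] (K →L[ℂ] K)}
    {Φ' : C(ι' → ℙ k (Fin n → k), ℂ) →⋆ₐ[ℂ] (K →L[ℂ] K)} (h : Jn2 E a Φ) (h' : Jn2 E a' Φ')
    (r : ι' → ι) (hr : ∀ i, a' i = a (r i)) (F : C(ι' → ℙ k (Fin n → k), ℂ)) :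
    Φ' F = Φ (F.comp ⟨fun z i => z (r i), by fun_prop⟩) := by
  refine co_induction (fun F => Φ' F = Φ (F.comp ⟨fun z i => z (r i), by fun_prop⟩)) ?_ ?_ ?_ ?_
    ?_ F
  · refine isClosed_eq (cont_hom Φ') ?_
    exact (cont_hom Φ).comp (ContinuousMap.continuous_precomp _)
  · intro i f
    rw [h' i f, hr i, ← h (r i) f]
    rfl
  · intro c
    have e : (algebraMap ℂ C(ι' → ℙ k (Fin n → k), ℂ) c).comp
      ⟨fun z i => z (r i), by fun_prop⟩ = algebraMap ℂ C(ι → ℙ k (Fin n → k), ℂ) c := rfl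
    rw [e, AlgHomClass.commutes, AlgHomClass.commutes]
  · intro F G hF hG
    rw [map_add, hF, hG, ← map_add]
    rfl
  · intro F G hF hG
    rw [map_mul, hF, hG, ← map_mul]
    rfl

theorem Jn2.ae_pull {ι ι' : Type} [Fintype ι] [Fintype ι'] {a : ι → ℙ kS (Fin n → kS)}
    {a' : ι' → ℙ kS (Fin n → kS)}
    {Φ : C(ι → ℙ k (Fin n → k), ℂ) →⋆ₐ[ℂ] (K →L[ℂ] K)}
    {Φ' : C(ι' → ℙ k (Fin n → k), ℂ) →⋆ₐ[ℂ] (K →L[ℂ] K)} (h : Jn2 E a Φ) (h' : Jn2 E a' Φ')
    (r : ι' → ι) (hr : ∀ i, a' i = a (r i)) {p : (ι' → ℙ k (Fin n → k)) → Prop}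
    (hp : ∀ ξ, ∀ᵐ y ∂(ms Φ' ξ), p y) (ξ : K) : ∀ᵐ z ∂(ms Φ ξ), p (fun i => z (r i)) :=
  Cls.ae_pull Φ Φ' ⟨fun z i => z (r i), by fun_prop⟩ (h.comp h' r hr) hp ξ

theorem pi_mul2 (hL : Leg2 α π lam W q E) (g : H) :
    π g * π g⁻¹ = 1 ∧ π g⁻¹ * π g = 1 := by
  rw [← map_mul, ← map_mul, mul_inv_cancel, inv_mul_cancel, map_one]
  exact ⟨rfl, rfl⟩

/-- conjugation by `π g` moves the points -/
theorem Jn2.pi_conj (hL : Leg2 α π lam W q E) {ι : Type} {a : ι → ℙ kS (Fin n → kS)}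
    {Φ Φ' : C(ι → ℙ k (Fin n → k), ℂ) →⋆ₐ[ℂ] (K →L[ℂ] K)} (g : H)
    (h : Jn2 E a Φ) (h' : Jn2 E (fun i => α g • a i) Φ') (F : C(ι → ℙ k (Fin n → k), ℂ)) :
    π g * Φ F * π g⁻¹ = Φ' F := by
  have := conj_eq Φ Φ' (ContinuousMap.id _) (U := π g) (V := π g⁻¹) (pi_mul2 hL g).1
    (pi_mul2 hL g).2 (fun i f => by
      rw [h i f, hL.pcov, ← h' i f]
      rfl) F
  exact this

theorem Jn2.lam_conj (hL : Leg2 α π lam W q E) {ι : Type} {a : ι → ℙ kS (Fin n → kS)}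
    {Φ : C(ι → ℙ k (Fin n → k), ℂ) →⋆ₐ[ℂ] (K →L[ℂ] K)} (h : Jn2 E a Φ) (γ : Γ)
    (F : C(ι → ℙ k (Fin n → k), ℂ)) :
    lam γ * Φ F * lam γ⁻¹ = Φ (F.comp ⟨fun z i => (q γ)⁻¹ • z i, by fun_prop⟩) := by
  refine conj_eq Φ Φ ⟨fun z i => (q γ)⁻¹ • z i, by fun_prop⟩ (U := lam γ) (V := lam γ⁻¹) ?_ ?_
    (fun i f => ?_) F
  · rw [← map_mul, mul_inv_cancel, map_one]
  · rw [← map_mul, inv_mul_cancel, map_one]
  · rw [h i f, hL.cov, ← h i]
    rfl

/-- a family with the matroid of the quadruple has a cross ratio -/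
theorem cs_of_mt2 {i j : Fin n} (hij : i ≠ j) {s : kS} {z : Fin 4 → ℙ k (Fin n → k)}
    (h : Mt2 (qd hij s) z) : z ∈ CS (univ : Set k) := by
  classical
  obtain ⟨uz, hz⟩ := exists_rep z
  obtain ⟨ua, ha, a0, a1, a2, a3⟩ : ∃ ua : Fin 4 → Fin n → kS, Rep ua (qd hij s) ∧
      ua 0 = ev i ∧ ua 1 = ev j ∧ ua 2 = ev i + ev j ∧ ua 3 = s • ev i + ev j := by
    refine ⟨fun x => uc i j s (qi i j x), fun x => ⟨uc_ne hij s _, ?_⟩, rfl, rfl, rfl, rfl⟩
    rw [qd_eq]; rfl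
  -- independence of pairs
  have pair : ∀ x y : Fin 4, x ≠ y → LinearIndependent kS ![ua x, ua y] →
      LinearIndependent k ![uz x, uz y] := by
    intro x y hxy hI
    have h1 : LinearIndepOn kS ua (({x, y} : Finset (Fin 4)) : Set (Fin 4)) := by
      rw [Finset.coe_insert, Finset.coe_singleton, LinearIndepOn.pair_iff _ hxy]
      exact LinearIndependent.pair_iff.1 hI
    have h2 := indep_of_mt2 h ha hz h1
    rw [Finset.coe_insert, Finset.coe_singleton, LinearIndepOn.pair_iff _ hxy] at h2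
    exact LinearIndependent.pair_iff.2 h2
  have hmi : ∀ v w : Fin n → kS, mi (i, j) v w ≠ 0 → LinearIndependent kS ![v, w] :=
    fun v w h => li_pair h
  have i01 := pair 0 1 (by decide) (hmi _ _ (by
    rw [a0, a1]; simp [mi, ev_self, ev_ne hij, ev_ne hij.symm]))
  have i02 := pair 0 2 (by decide) (hmi _ _ (by
    rw [a0, a2]; simp [mi, ev_self, ev_ne hij, ev_ne hij.symm]))
  have i21 := pair 2 1 (by decide) (hmi _ _ (by
    rw [a2, a1]; simp [mi, ev_self, ev_ne hij, ev_ne hij.symm]))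
  have i03 := pair 0 3 (by decide) (hmi _ _ (by
    rw [a0, a3]; simp [mi, ev_self, ev_ne hij, ev_ne hij.symm]))
  have mem : ∀ x, ua x ∈ Submodule.span kS (ua '' (({0, 1} : Finset (Fin 4)) : Set (Fin 4))) →
      ∃ α β : k, uz x = α • uz 0 + β • uz 1 := by
    intro x hx
    have := mem_of_mt2 h ha hz hx
    rw [Finset.coe_insert, Finset.coe_singleton, image_pair, Submodule.mem_span_pair] at this
    obtain ⟨α, β, e⟩ := this
    exact ⟨α, β, e.symm⟩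
  obtain ⟨α, β, e2⟩ := mem 2 (by
    rw [a2, ← a0, ← a1]
    exact Submodule.add_mem _ (Submodule.subset_span ⟨0, by simp, rfl⟩)
      (Submodule.subset_span ⟨1, by simp, rfl⟩))
  obtain ⟨γ, δ, e3⟩ := mem 3 (by
    rw [a3, ← a0, ← a1]
    exact Submodule.add_mem _ (Submodule.smul_mem _ _ (Submodule.subset_span ⟨0, by simp, rfl⟩))
      (Submodule.subset_span ⟨1, by simp, rfl⟩))
  obtain ⟨p, hp⟩ := exists_mi i01
  have hα : α ≠ 0 := by
    rintro rfl
    obtain ⟨p', hp'⟩ := exists_mi i21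
    apply hp'
    rw [e2, zero_smul, zero_add, mi_smul_left, mi_self, mul_zero]
  have hβ : β ≠ 0 := by
    rintro rfl
    obtain ⟨p', hp'⟩ := exists_mi i02
    apply hp'
    rw [e2, zero_smul, add_zero, mi_smul_right, mi_self, mul_zero]
  have hδ : δ ≠ 0 := by
    rintro rfl
    obtain ⟨p', hp'⟩ := exists_mi i03
    apply hp'
    rw [e3, zero_smul, add_zero, mi_smul_right, mi_self, mul_zero]
  refine ⟨_, trivial, rl_of_cnd hz.ne (fun x => (hz x).2) (p := p) ?_⟩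
  have m02 : mi p (uz 0) (uz 2) = β * mi p (uz 0) (uz 1) := by
    rw [e2, mi_add_right, mi_smul_right, mi_smul_right, mi_self]; ring
  have m21 : mi p (uz 2) (uz 1) = α * mi p (uz 0) (uz 1) := by
    rw [e2, mi_add_left, mi_smul_left, mi_smul_left, mi_self]; ring
  have m03 : mi p (uz 0) (uz 3) = δ * mi p (uz 0) (uz 1) := by
    rw [e3, mi_add_right, mi_smul_right, mi_smul_right, mi_self]; ring
  have m31 : mi p (uz 3) (uz 1) = γ * mi p (uz 0) (uz 1) := by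
    rw [e3, mi_add_left, mi_smul_left, mi_smul_left, mi_self]; ring
  refine ⟨hp, ?_, ?_, ?_, fun x => ?_, fun x => ?_⟩
  · rw [m02]; exact mul_ne_zero hβ hp
  · rw [m21]; exact mul_ne_zero hα hp
  · rw [m03]; exact mul_ne_zero hδ hp
  · rw [m02, m21]
    conv_lhs => rw [e2]
    simp only [Pi.add_apply, Pi.smul_apply, smul_eq_mul]; ring
  · rw [m03, m31]
    conv_lhs => rw [e3]
    simp only [Pi.add_apply, Pi.smul_apply, smul_eq_mul]; ring

/-- **the cross ratio is a scalar** -/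
theorem Leg2.cr_const [Nontrivial K] (hL : Leg2 α π lam W q E) {i j l : Fin n} (hij : i ≠ j)
    (hli : l ≠ i) (hlj : l ≠ j) (s : kS) :
    ∃ t : k, ∀ Φ : C(Fin 4 → ℙ k (Fin n → k), ℂ) →⋆ₐ[ℂ] (K →L[ℂ] K), Jn2 E (qd hij s) Φ →
      ∀ ξ, ∀ᵐ z ∂(ms Φ ξ), Rl z t := by
  letI : MeasurableSpace k := borel k
  haveI : BorelSpace k := ⟨rfl⟩
  obtain ⟨Φ, hΦ⟩ := hL.joint (qd hij s)
  have hΦ' : Jn2 E (qd hij s) Φ := hΦ
  have h1 : ∀ ξ, ∀ᵐ z ∂(ms Φ ξ), z ∈ CS (univ : Set k) := by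
    intro ξ
    filter_upwards [hL.mt (qd hij s) Φ hΦ ξ] with z hz
    exact cs_of_mt2 hij hz
  obtain ⟨t, ht⟩ := cs_const Φ h1 (by
    intro A hA
    have hcA := measurableSet_cs (n := n) hA
    -- commutation with `W`
    have c1 : ∀ w ∈ W, pv Φ (CS A) * w = w * pv Φ (CS A) := by
      intro w hw
      refine (pv_commute Φ (T := w) (fun f => ?_) _).symm
      exact comm_all Φ (T := w) (fun i f => by
        rw [hΦ]; exact (hL.cm _ _ w hw).symm) f
    -- commutation with `lam`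
    have c2 : ∀ γ, pv Φ (CS A) * lam γ = lam γ * pv Φ (CS A) := by
      intro γ
      have u1 : lam γ * lam γ⁻¹ = 1 := by rw [← map_mul, mul_inv_cancel, map_one]
      have u2 : lam γ⁻¹ * lam γ = 1 := by rw [← map_mul, inv_mul_cancel, map_one]
      let g : (Fin 4 → ℙ k (Fin n → k)) ≃ₜ (Fin 4 → ℙ k (Fin n → k)) :=
        { toFun := fun z x => q γ • z x
          invFun := fun z x => (q γ)⁻¹ • z x
          left_inv := fun z => funext fun x => inv_smul_smul _ _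
          right_inv := fun z => funext fun x => smul_inv_smul _ _
          continuous_toFun := by fun_prop
          continuous_invFun := by fun_prop }
      have h2 := pv_cov Φ u1 u2 g (fun f => hΦ'.lam_conj hL γ f) (CS A)
      have h3 : g '' (CS A) = CS A := by
        ext z
        constructor
        · rintro ⟨z', hz', rfl⟩
          exact (cs_gsmul (q γ)).2 hz'
        · intro hz
          refine ⟨g.symm z, ?_, g.apply_symm_apply z⟩
          exact (cs_gsmul (q γ)⁻¹).2 hz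
      rw [h3] at h2
      calc pv Φ (CS A) * lam γ = (lam γ * pv Φ (CS A) * lam γ⁻¹) * lam γ := by rw [h2]
        _ = lam γ * pv Φ (CS A) * (lam γ⁻¹ * lam γ) := by simp only [mul_assoc]
        _ = lam γ * pv Φ (CS A) := by rw [u2, mul_one]
    -- commutation with the stabiliser of the line
    have c3 : ∀ e : H, (∀ x : ℙ kS (Fin n → kS), x.submodule ≤ Submodule.span kS {Pi.single i 1,
        Pi.single j 1} → α e • x = x) → pv Φ (CS A) * π e = π e * pv Φ (CS A) := by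
      intro e he
      refine (pv_commute Φ (T := π e) (fun f => ?_) _).symm
      have h2 := Jn2.pi_conj hL e hΦ' (Φ' := Φ) (by
          intro x f
          change Φ (co x f) = E (α e • qd hij s x) f
          rw [he _ (qd_le hij s x)]
          exact hΦ x f) f
      have u := (pi_mul2 hL e).2
      calc π e * Φ f = π e * Φ f * (π e⁻¹ * π e) := by rw [u, mul_one]
        _ = (π e * Φ f * π e⁻¹) * π e := by simp only [mul_assoc]
        _ = _ := by rw [h2]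
    obtain ⟨c, hc⟩ := hL.erg i j l hij hli hlj _ c1 c2 c3
    have hid := pv_idem Φ (CS A)
    rw [hc] at hid ⊢
    rw [smul_mul_smul_comm, mul_one] at hid
    have hcc : c * c = c := by
      have h1 : (1 : K →L[ℂ] K) ≠ 0 := one_ne_zero
      have h2 : (c * c - c) • (1 : K →L[ℂ] K) = 0 := by rw [sub_smul, hid, sub_self]
      rcases smul_eq_zero.1 h2 with h3 | h3
      · exact sub_eq_zero.1 h3
      · exact absurd h3 h1
    rcases eq_or_ne c 0 with rfl | hc0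
    · left; rw [zero_smul]
    · right
      have : c = 1 := mul_left_cancel₀ hc0 (by rw [hcc, mul_one])
      rw [this, one_smul])
  refine ⟨t, fun Φ' hΦ'' ξ => ?_⟩
  have : Φ' = Φ := hom_uniq fun i f => by rw [hΦ'' i f, hΦ i f]
  rw [this]
  exact ht ξ

/-- **the random configuration** -/
theorem Leg2.cfg_const [Nontrivial K] (hL : Leg2 α π lam W q E) {i j l : Fin n} (hij : i ≠ j)
    (hli : l ≠ i) (hlj : l ≠ j) (s : kS) :
    ∃ t : k, ∀ Φ : C(Fin n ⊕ Fin 5 → ℙ k (Fin n → k), ℂ) →⋆ₐ[ℂ] (K →L[ℂ] K),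
      Jn2 E (ac hij s) Φ → ∀ ξ, ∀ᵐ z ∂(ms Φ ξ), ∃ g : GL (Fin n) k, ∀ x, z x = g • ac hij t x := by
  obtain ⟨t, ht⟩ := hL.cr_const hij hli hlj s
  refine ⟨t, fun Φ hΦ ξ => ?_⟩
  obtain ⟨Φ4, hΦ4⟩ := hL.joint (qd hij s)
  have h1 := hΦ.ae_pull (a' := qd hij s) (Φ' := Φ4) hΦ4 (qi i j) (fun x => qd_eq hij s x)
    (ht Φ4 hΦ4) ξ
  filter_upwards [h1, hL.mt (ac hij s) Φ hΦ ξ] with z hz1 hz2
  refine exists_cfg2 hij hli hlj hz2 ?_
  convert hz1 using 1
  funext x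
  fin_cases x <;> rfl

end leg

end Vale.Agent.P092.H375.X2
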