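import Vale.Agent.P092.H375.ClsF

/-!
P092 (helper375), [SX-CLS]: families of points over two fields with the same matroid; the
configuration which computes the elementary matrices.
-/

set_option linter.all false

namespace Vale.Agent.P092.H375.X2

open Vale.Agent.P092.H820 Vale.Agent.P092.H375.Cls
open TopologicalSpace Set Matrix Module
open scoped LinearAlgebra.Projectivization Matrix

section lin

variable {kS k : Type} [NontriviallyNormedField kS] [NontriviallyNormedField k] {n : ℕ}
  {ι : Type*}

/-- two families, over two fields, have the same matroid -/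
def Mt2 (a : ι → ℙ kS (Fin n → kS)) (z : ι → ℙ k (Fin n → k)) : Prop :=
  ∀ A : Finset ι, rk z A = rk a A

theorem Mt2.symm {a : ι → ℙ kS (Fin n → kS)} {z : ι → ℙ k (Fin n → k)} (h : Mt2 a z) : Mt2 z a :=
  fun A => (h A).symm

theorem Mt2.gsmul {G : Type*} [Group G] [DistribMulAction G (Fin n → k)]
    [SMulCommClass G k (Fin n → k)] {a : ι → ℙ kS (Fin n → kS)} {z : ι → ℙ k (Fin n → k)}
    (h : Mt2 a z) (g : G) : Mt2 a (fun i => g • z i) := fun A => by rw [rk_gsmul, h]

variable [DecidableEq ι] {a : ι → ℙ kS (Fin n → kS)} {z : ι → ℙ k (Fin n → k)}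
  {ua : ι → Fin n → kS} {uz : ι → Fin n → k}

theorem mem_of_mt2 (h : Mt2 a z) (ha : Rep ua a) (hz : Rep uz z) {i : ι} {A : Finset ι}
    (hi : ua i ∈ Submodule.span kS (ua '' A)) : uz i ∈ Submodule.span k (uz '' A) := by
  have h1 : rk a (insert i A) = rk a A := by
    rw [ha.rk, ha.rk, Finset.coe_insert, image_insert_eq, Submodule.span_insert_eq_span hi]
  have h2 : rk z (insert i A) = rk z A := by rw [h, h, h1]
  rw [hz.rk, hz.rk] at h2
  have h3 : Submodule.span k (uz '' (A : Set ι)) = Submodule.span k (uz '' (insert i A : Finset ι)) := by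
    refine Submodule.eq_of_le_of_finrank_eq (Submodule.span_mono (image_mono ?_)) h2.symm
    exact_mod_cast Finset.subset_insert i A
  rw [h3]
  exact Submodule.subset_span ⟨i, by simp, rfl⟩

theorem indep_of_mt2 (h : Mt2 a z) (ha : Rep ua a) (hz : Rep uz z) {A : Finset ι}
    (hA : LinearIndepOn kS ua (A : Set ι)) : LinearIndepOn k uz (A : Set ι) := by
  rw [indep_iff_rk hz, h, ← indep_iff_rk ha]
  exact hA

end lin

section cfg

variable {kS k : Type} [NontriviallyNormedField kS] [NontriviallyNormedField k] {n : ℕ}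
  {i j l : Fin n} {s : kS} {t : k}

/-- **the normalised configuration** -/
theorem norm_cfg2 (hij : i ≠ j) (hli : l ≠ i) (hlj : l ≠ j) {y : Fin n ⊕ Fin 5 → ℙ k (Fin n → k)}
    (h : Mt2 (ac hij s) y) {uy : Fin n ⊕ Fin 5 → Fin n → k} (hy : Rep uy y)
    (h0 : ∀ m, uy (.inl m) = ev m) (h1 : uy (.inr 0) = 1)
    (ht : Rl ![y (.inl i), y (.inl j), y (.inr 1), y (.inr 2)] t) : y = ac hij t := by
  classical
  have ha := rep_ac hij s (k := kS)
  have hM : ∀ {x : Fin n ⊕ Fin 5} {A : Finset (Fin n ⊕ Fin 5)},
      uc i j s x ∈ Submodule.span kS (uc i j s '' A) → uy x ∈ Submodule.span k (uy '' A) :=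
    fun hx => mem_of_mt2 h ha hy hx
  -- the point `e_i + e_j`
  have p1 : ∃ c : k, uy (.inr 1) = c • (ev i + ev j) := by
    have m1 := hM (x := .inr 1) (A := {.inl i, .inl j}) (by
      change ev i + ev j ∈ _
      exact Submodule.add_mem _ (Submodule.subset_span ⟨.inl i, by simp, rfl⟩)
        (Submodule.subset_span ⟨.inl j, by simp, rfl⟩))
    have m2 := hM (x := .inr 1)
      (A := insert (.inr 0) ((Finset.univ.filter fun m : Fin n => m ≠ i ∧ m ≠ j).image .inl)) (by
      change ev i + ev j ∈ _
      have e : (ev i + ev j : Fin n → kS) =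
          1 - ∑ m ∈ Finset.univ.filter (fun m : Fin n => m ≠ i ∧ m ≠ j), ev m := by
        rw [← sum_ev, eq_sub_iff_add_eq, ← Finset.sum_filter_add_sum_filter_not Finset.univ
          (fun m : Fin n => m ≠ i ∧ m ≠ j) (fun m => (ev m : Fin n → kS)), add_comm]
        congr 1
        have : (Finset.univ.filter fun m : Fin n => ¬ (m ≠ i ∧ m ≠ j)) = {i, j} := by
          ext m
          simp only [Finset.mem_filter, Finset.mem_univ, true_and, Finset.mem_insert,
            Finset.mem_singleton]
          tauto
        rw [this, Finset.sum_pair hij]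
      rw [e]
      refine Submodule.sub_mem _ (Submodule.subset_span ⟨.inr 0, by simp, rfl⟩)
        (Submodule.sum_mem _ fun m hm => Submodule.subset_span ⟨.inl m, ?_, rfl⟩)
      simp only [Finset.mem_filter, Finset.mem_univ, true_and] at hm
      simp [hm])
    refine ⟨uy (.inr 1) i, ?_⟩
    have z1 : ∀ m, m ≠ i → m ≠ j → uy (.inr 1) m = 0 := by
      intro m hi hj
      refine fun_zero m1 (cf m) fun x hx => ?_
      simp only [Finset.mem_insert, Finset.mem_singleton] at hx
      rcases hx with rfl | rfl
      · rw [h0, cf_apply, ev_ne hi]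
      · rw [h0, cf_apply, ev_ne hj]
    have z2 : uy (.inr 1) i = uy (.inr 1) j := by
      have := fun_zero m2 (cf i - cf j) fun x hx => ?_
      · simpa [sub_eq_zero] using this
      · simp only [Finset.mem_insert, Finset.mem_image, Finset.mem_filter, Finset.mem_univ,
          true_and] at hx
        rcases hx with rfl | ⟨m, hm, rfl⟩
        · rw [h1]; simp
        · rw [h0, LinearMap.sub_apply, cf_apply, cf_apply, ev_ne hm.1.symm, ev_ne hm.2.symm,
            sub_self]
    funext m
    simp only [Pi.smul_apply, Pi.add_apply, smul_eq_mul]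
    by_cases hi : m = i
    · subst hi; rw [ev_self, ev_ne hij]; ring
    · by_cases hj : m = j
      · subst hj; rw [ev_self, ev_ne hij.symm, z2]; ring
      · rw [ev_ne hi, ev_ne hj, z1 m hi hj]; ring
  -- the point `s e_i + e_j`
  have p2 : ∃ c : k, uy (.inr 2) = c • (t • ev i + ev j) := by
    have m1 := hM (x := .inr 2) (A := {.inl i, .inl j}) (by
      change s • ev i + ev j ∈ _
      exact Submodule.add_mem _ (Submodule.smul_mem _ _
        (Submodule.subset_span ⟨.inl i, by simp, rfl⟩))
        (Submodule.subset_span ⟨.inl j, by simp, rfl⟩))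
    have z1 : ∀ m, m ≠ i → m ≠ j → uy (.inr 2) m = 0 := by
      intro m hi hj
      refine fun_zero m1 (cf m) fun x hx => ?_
      simp only [Finset.mem_insert, Finset.mem_singleton] at hx
      rcases hx with rfl | rfl
      · rw [h0, cf_apply, ev_ne hi]
      · rw [h0, cf_apply, ev_ne hj]
    have z2 : uy (.inr 2) j ≠ 0 := by
      intro hz
      have hI : LinearIndepOn kS (uc i j s) (({.inl i, .inr 2} : Finset (Fin n ⊕ Fin 5)) :
          Set (Fin n ⊕ Fin 5)) := by
        rw [Finset.coe_insert, Finset.coe_singleton, LinearIndepOn.pair_iff _ (by simp)]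
        intro a b hab
        have e1 := congrFun hab i
        have e2 := congrFun hab j
        simp only [uc, Pi.add_apply, Pi.smul_apply, ev_self, ev_ne hij, ev_ne hij.symm,
          smul_eq_mul, Pi.zero_apply] at e1 e2
        have hb : b = 0 := by linear_combination e2
        subst hb
        exact ⟨by linear_combination e1, rfl⟩
      have hI' := indep_of_mt2 h ha hy hI
      rw [Finset.coe_insert, Finset.coe_singleton, LinearIndepOn.pair_iff _ (by simp)] at hI'
      have := hI' (uy (.inr 2) i) (-1) (by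
        funext m
        simp only [h0, Pi.add_apply, Pi.smul_apply, smul_eq_mul, Pi.zero_apply]
        by_cases hi : m = i
        · subst hi; rw [ev_self]; ring
        · by_cases hj : m = j
          · subst hj; rw [ev_ne hij.symm, hz]; ring
          · rw [ev_ne hi, z1 m hi hj]; ring)
      exact one_ne_zero (neg_eq_zero.1 this.2)
    have e : uy (.inr 2) = uy (.inr 2) j • ((uy (.inr 2) i / uy (.inr 2) j) • ev i + ev j) := by
      funext m
      simp only [Pi.smul_apply, Pi.add_apply, smul_eq_mul]
      by_cases hi : m = i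
      · subst hi; rw [ev_self, ev_ne hij]; field_simp; ring
      · by_cases hj : m = j
        · subst hj; rw [ev_self, ev_ne hij.symm]; ring
        · rw [ev_ne hi, ev_ne hj, z1 m hi hj]; ring
    have ht' : Rl ![y (.inl i), y (.inl j), y (.inr 1), y (.inr 2)]
        (uy (.inr 2) i / uy (.inr 2) j) := by
      obtain ⟨c1, hc1⟩ := p1
      have n3 : ((uy (.inr 2) i / uy (.inr 2) j) • ev i + ev j : Fin n → k) ≠ 0 := by
        intro h'
        have := congrFun h' j
        simp [ev_self, ev_ne hij.symm] at this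
      refine ⟨ev i, ev j, uc_ne (k := k) hij t (.inl i), uc_ne (k := k) hij t (.inl j),
        uc_ne (k := k) hij t (.inr 1), n3, ⟨(i, j), ?_⟩, ?_, ?_, ?_, ?_⟩
      · simp [mi, ev_self, ev_ne hij, ev_ne hij.symm]
      · obtain ⟨w1, w2⟩ := hy (.inl i)
        change y (.inl i) = _
        rw [w2]
        exact pj_smul_eq _ _ (c := 1) (by rw [one_smul, h0])
      · obtain ⟨w1, w2⟩ := hy (.inl j)
        change y (.inl j) = _
        rw [w2]
        exact pj_smul_eq _ _ (c := 1) (by rw [one_smul, h0])
      · obtain ⟨w1, w2⟩ := hy (.inr 1)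
        change y (.inr 1) = _
        rw [w2]
        exact pj_smul_eq _ _ hc1
      · obtain ⟨w1, w2⟩ := hy (.inr 2)
        change y (.inr 2) = _
        rw [w2]
        exact pj_smul_eq _ _ e
    rw [rl_uniq ht ht']
    exact ⟨_, e⟩
  -- the point `e - e_j`
  have p3 : ∃ c : k, uy (.inr 3) = c • (1 - ev j) := by
    have m1 := hM (x := .inr 3) (A := {.inr 0, .inl j}) (by
      change 1 - ev j ∈ _
      exact Submodule.sub_mem _ (Submodule.subset_span ⟨.inr 0, by simp, rfl⟩)
        (Submodule.subset_span ⟨.inl j, by simp, rfl⟩))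
    have m2 := hM (x := .inr 3)
      (A := (Finset.univ.filter fun m : Fin n => m ≠ j).image .inl) (by
      change 1 - ev j ∈ _
      have e : (1 - ev j : Fin n → kS) =
          ∑ m ∈ Finset.univ.filter (fun m : Fin n => m ≠ j), ev m := by
        rw [← sum_ev, sub_eq_iff_eq_add, ← Finset.sum_filter_add_sum_filter_not Finset.univ
          (fun m : Fin n => m ≠ j) (fun m => (ev m : Fin n → kS))]
        congr 1
        have : (Finset.univ.filter fun m : Fin n => ¬ (m ≠ j)) = {j} := by
          ext m
          simp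
        rw [this, Finset.sum_singleton]
      rw [e]
      refine Submodule.sum_mem _ fun m hm => Submodule.subset_span ⟨.inl m, ?_, rfl⟩
      simp only [Finset.mem_filter, Finset.mem_univ, true_and] at hm
      simp [hm])
    refine ⟨uy (.inr 3) i, ?_⟩
    have z1 : ∀ m, m ≠ j → uy (.inr 3) m = uy (.inr 3) i := by
      intro m hj
      have := fun_zero m1 (cf m - cf i) fun x hx => ?_
      · simpa [sub_eq_zero] using this
      · simp only [Finset.mem_insert, Finset.mem_singleton] at hx
        rcases hx with rfl | rfl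
        · rw [h1]; simp
        · rw [h0, LinearMap.sub_apply, cf_apply, cf_apply, ev_ne hj, ev_ne hij, sub_self]
    have z2 : uy (.inr 3) j = 0 := by
      refine fun_zero m2 (cf j) fun x hx => ?_
      simp only [Finset.mem_image, Finset.mem_filter, Finset.mem_univ, true_and] at hx
      obtain ⟨m, hm, rfl⟩ := hx
      rw [h0, cf_apply, ev_ne (Ne.symm hm)]
    funext m
    simp only [Pi.smul_apply, Pi.sub_apply, Pi.one_apply, smul_eq_mul]
    by_cases hj : m = j
    · subst hj; rw [ev_self, z2]; ring
    · rw [ev_ne hj, z1 m hj]; ring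
  -- the point `e + s e_i`
  have p4 : ∃ c : k, uy (.inr 4) = c • (1 + t • ev i) := by
    have m1 := hM (x := .inr 4) (A := {.inr 0, .inl i}) (by
      change 1 + s • ev i ∈ _
      exact Submodule.add_mem _ (Submodule.subset_span ⟨.inr 0, by simp, rfl⟩)
        (Submodule.smul_mem _ _ (Submodule.subset_span ⟨.inl i, by simp, rfl⟩)))
    have m2 := hM (x := .inr 4) (A := {.inr 2, .inr 3}) (by
      have e : uc i j s (.inr 4) = uc i j s (.inr 2) + uc i j s (.inr 3) := by
        simp only [uc]
        abel
      rw [e]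
      exact Submodule.add_mem _ (Submodule.subset_span ⟨.inr 2, by simp, rfl⟩)
        (Submodule.subset_span ⟨.inr 3, by simp, rfl⟩))
    obtain ⟨c2, hc2⟩ := p2
    obtain ⟨c3, hc3⟩ := p3
    refine ⟨uy (.inr 4) j, ?_⟩
    have z1 : ∀ m, m ≠ i → uy (.inr 4) m = uy (.inr 4) j := by
      intro m hi
      have := fun_zero m1 (cf m - cf j) fun x hx => ?_
      · simpa [sub_eq_zero] using this
      · simp only [Finset.mem_insert, Finset.mem_singleton] at hx
        rcases hx with rfl | rfl
        · rw [h1]; simp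
        · rw [h0, LinearMap.sub_apply, cf_apply, cf_apply, ev_ne hi, ev_ne hij.symm, sub_self]
    have z2 : uy (.inr 4) i - t * uy (.inr 4) j - uy (.inr 4) l = 0 := by
      have := fun_zero m2 (cf i - t • cf j - cf l) fun x hx => ?_
      · simpa using this
      · simp only [Finset.mem_insert, Finset.mem_singleton] at hx
        rcases hx with rfl | rfl
        · rw [hc2]
          simp only [LinearMap.sub_apply, LinearMap.smul_apply, cf_apply, Pi.smul_apply,
            Pi.add_apply, smul_eq_mul, ev_self, ev_ne hij, ev_ne hij.symm, ev_ne hli, ev_ne hlj]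
          ring
        · rw [hc3]
          simp only [LinearMap.sub_apply, LinearMap.smul_apply, cf_apply, Pi.smul_apply,
            Pi.sub_apply, Pi.one_apply, smul_eq_mul, ev_self, ev_ne hij, ev_ne hlj]
          ring
    funext m
    simp only [Pi.smul_apply, Pi.add_apply, Pi.one_apply, smul_eq_mul]
    by_cases hi : m = i
    · subst hi
      rw [ev_self]
      have := z1 l hli
      linear_combination z2 + this
    · rw [ev_ne hi, z1 m hi]; ring
  funext x
  obtain ⟨w1, w2⟩ := hy x
  rw [w2, ac]
  rcases x with m | x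
  · exact pj_smul_eq _ _ (c := 1) (by rw [one_smul, h0]; rfl)
  · fin_cases x
    · exact pj_smul_eq _ _ (c := 1) (by rw [one_smul]; exact h1)
    · obtain ⟨c, hc⟩ := p1
      exact pj_smul_eq _ _ hc
    · obtain ⟨c, hc⟩ := p2
      exact pj_smul_eq _ _ hc
    · obtain ⟨c, hc⟩ := p3
      exact pj_smul_eq _ _ hc
    · obtain ⟨c, hc⟩ := p4
      exact pj_smul_eq _ _ hc

/-- **the general configuration** -/
theorem exists_cfg2 (hij : i ≠ j) (hli : l ≠ i) (hlj : l ≠ j) {z : Fin n ⊕ Fin 5 → ℙ k (Fin n → k)}
    (h : Mt2 (ac hij s) z) (ht : Rl ![z (.inl i), z (.inl j), z (.inr 1), z (.inr 2)] t) :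
    ∃ g : GL (Fin n) k, ∀ x, z x = g • ac hij t x := by
  classical
  obtain ⟨uz, hz⟩ := exists_rep z
  have ha := rep_ac hij s (k := kS)
  -- the images of the basis vectors are independent
  have hI : LinearIndependent k (fun m : Fin n => uz (.inl m)) := by
    have h1 : LinearIndepOn kS (uc i j s) ((Finset.univ.image Sum.inl : Finset (Fin n ⊕ Fin 5)) :
        Set (Fin n ⊕ Fin 5)) := by
      rw [Finset.coe_image, Finset.coe_univ, image_univ]
      exact (linearIndepOn_range_iff Sum.inl_injective _).2 ev_indep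
    have h2 := indep_of_mt2 h ha hz h1
    rw [Finset.coe_image, Finset.coe_univ, image_univ] at h2
    exact (linearIndepOn_range_iff Sum.inl_injective _).1 h2
  -- coordinates of the last point
  have hcard : Fintype.card (Fin n) = finrank k (Fin n → k) := by simp
  obtain ⟨c, hc⟩ : ∃ c : Fin n → k, ∑ m, c m • uz (.inl m) = uz (.inr 0) := by
    have h1 : uz (.inr 0) ∈ Submodule.span k (range fun m : Fin n => uz (.inl m)) := by
      rw [hI.span_eq_top_of_card_eq_finrank' hcard]
      trivial
    exact (Submodule.mem_span_range_iff_exists_fun k).1 h1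
  have hc0 : ∀ m, c m ≠ 0 := by
    intro m hm
    have h1 : uz (.inr 0) ∈ Submodule.span k (uz ''
        (((Finset.univ.filter fun m' : Fin n => m' ≠ m).image Sum.inl :
          Finset (Fin n ⊕ Fin 5)) : Set (Fin n ⊕ Fin 5))) := by
      rw [← hc, ← Finset.sum_filter_add_sum_filter_not Finset.univ (fun m' : Fin n => m' ≠ m)]
      have e : ∑ x ∈ Finset.univ.filter (fun m' : Fin n => ¬ m' ≠ m), c x • uz (.inl x) = 0 := by
        refine Finset.sum_eq_zero fun x hx => ?_
        simp only [Finset.mem_filter, Finset.mem_univ, true_and, not_not] at hx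
        rw [hx, hm, zero_smul]
      rw [e, add_zero]
      refine Submodule.sum_mem _ fun x hx => Submodule.smul_mem _ _
        (Submodule.subset_span ⟨.inl x, ?_, rfl⟩)
      simp only [Finset.mem_filter, Finset.mem_univ, true_and] at hx
      simp [hx]
    have hsym : Mt2 z (ac hij s) := h.symm
    have h2 := mem_of_mt2 hsym hz ha h1
    have h3 := fun_zero h2 (cf m) fun x hx => by
      simp only [Finset.mem_image, Finset.mem_filter, Finset.mem_univ, true_and] at hx
      obtain ⟨m', hm', rfl⟩ := hx
      rw [cf_apply]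
      exact ev_ne (Ne.symm hm')
    rw [cf_apply] at h3
    exact one_ne_zero h3
  -- the matrix
  obtain ⟨M, hM⟩ : ∃ M : Matrix (Fin n) (Fin n) k, M = Matrix.of fun a m => c m * uz (.inl m) a :=
    ⟨_, rfl⟩
  have hcol : ∀ m, M *ᵥ (ev m) = c m • uz (.inl m) := by
    intro m
    rw [ev, Matrix.mulVec_single_one, hM]
    funext a
    rfl
  have hMu : IsUnit M := by
    rw [← Matrix.linearIndependent_cols_iff_isUnit]
    have e : M.col = fun m => c m • uz (.inl m) := by
      funext m a
      rw [hM]; rfl
    rw [e]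
    exact hI.units_smul (fun m => Units.mk0 (c m) (hc0 m))
  obtain ⟨g, hg⟩ := hMu
  have hgv : ∀ v : Fin n → k, g • v = M *ᵥ v := fun v => by rw [← hg]; rfl
  have hge : ∀ m, g • (ev m : Fin n → k) = c m • uz (.inl m) := fun m => by rw [hgv, hcol]
  have hg1 : g • (1 : Fin n → k) = uz (.inr 0) := by
    rw [← sum_ev, Finset.smul_sum, ← hc]
    exact Finset.sum_congr rfl fun m _ => hge m
  -- pull back
  obtain ⟨uy, huy⟩ : ∃ uy : Fin n ⊕ Fin 5 → Fin n → k, uy = Sum.elim (fun m => ev m)
    (fun x => g⁻¹ • uz (.inr x)) := ⟨_, rfl⟩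
  have hy : Rep uy (fun x => g⁻¹ • z x) := by
    intro x
    rcases x with m | x
    · refine ⟨by rw [huy]; exact uc_ne hij t (.inl m), ?_⟩
      obtain ⟨w1, w2⟩ := hz (.inl m)
      change g⁻¹ • z (.inl m) = _
      rw [w2, gsmul_pj]
      refine pj_smul_eq _ _ (c := (c m)⁻¹) ?_
      have e : uz (.inl m) = (c m)⁻¹ • g • (ev m : Fin n → k) := by
        rw [hge, smul_smul, inv_mul_cancel₀ (hc0 m), one_smul]
      rw [huy, e, smul_comm, inv_smul_smul]
      rfl
    · refine ⟨by rw [huy]; exact gsmul_ne _ (hz.ne _), ?_⟩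
      obtain ⟨w1, w2⟩ := hz (.inr x)
      change g⁻¹ • z (.inr x) = _
      rw [w2, gsmul_pj]
      refine pj_smul_eq _ _ (c := 1) ?_
      rw [one_smul, huy]; rfl
  have hn := norm_cfg2 hij hli hlj (h.gsmul g⁻¹) hy (fun m => by rw [huy]; rfl) (by
    rw [huy]
    change g⁻¹ • uz (.inr 0) = 1
    rw [← hg1, inv_smul_smul]) (t := t) (by
    have h1 := ht.gsmul g⁻¹
    convert h1 using 1
    funext x
    fin_cases x <;> rfl)
  refine ⟨g, fun x => ?_⟩
  have := congrFun hn x
  rw [← this, smul_inv_smul]

end cfg

end Vale.Agent.P092.H375.X2
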